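import Vale.Agent.P275NM.Alg

/-!
# P275, comparison on the character variety: the top part of the curvature form (algebra)
-/

set_option linter.unusedSectionVars false

open Matrix P275CW P275CW.DG Vale.Agent.P275NM

noncomputable section

namespace Vale.Agent.P275CF

variable {Ω Ω' : Type} [Ring Ω] [Algebra ℂ Ω] [Ring Ω'] [Algebra ℂ Ω'] {D : DG Ω} {D' : DG Ω'}
  {π : Ω' →ₐ[ℂ] Ω} {n κ : Type} [Fintype n] [DecidableEq n] [Fintype κ] {i j N : ℤ} {x y : Ω}
  {z : Ω'}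

variable (D D' π) in
/-- elements of degree at least `j` along the base -/
def Tj (j : ℤ) : Submodule ℂ Ω :=
  Submodule.span ℂ {x | ∃ i, ∃ a ∈ D.G i, ∃ b ∈ D'.G j, x = a * π b}

theorem tj_of {a : Ω} {b : Ω'} (ha : a ∈ D.G i) (hb : b ∈ D'.G j) : a * π b ∈ Tj D D' π j :=
  Submodule.subset_span ⟨i, a, ha, b, hb, rfl⟩

theorem tj_mul (h : D'.Hom D π) (hx : x ∈ Tj D D' π i) (hy : y ∈ Tj D D' π j) :
    x * y ∈ Tj D D' π (i + j) := by
  induction hx, hy using Submodule.span_induction₂ with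
  | mem_mem x y hx hy =>
    obtain ⟨p, a, ha, b, hb, rfl⟩ := hx
    obtain ⟨q, c, hc, e, he, rfl⟩ := hy
    rw [mul_assoc, ← mul_assoc (π b), D.cm (h.mem hb) hc, smul_mul_assoc, mul_smul_comm,
      mul_assoc, ← map_mul, ← mul_assoc]
    exact zsmul_mem (tj_of (D.mul ha hc) (D'.mul hb he)) _
  | zero_left => rw [zero_mul]; exact zero_mem _
  | zero_right => rw [mul_zero]; exact zero_mem _
  | add_left _ _ _ _ _ _ a b => rw [add_mul]; exact add_mem a b
  | add_right _ _ _ _ _ _ a b => rw [mul_add]; exact add_mem a b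
  | smul_left _ _ _ _ _ a => rw [smul_mul_assoc]; exact Submodule.smul_mem _ _ a
  | smul_right _ _ _ _ _ a => rw [mul_smul_comm]; exact Submodule.smul_mem _ _ a

theorem tj_kill (big : ∀ j, N < j → ∀ b ∈ D'.G j, b = 0) (hz : z ∈ D'.G i) (e : N < j + i)
    (hx : x ∈ Tj D D' π j) : x * π z = 0 := by
  induction hx using Submodule.span_induction with
  | mem x hx =>
    obtain ⟨p, a, -, b, hb, rfl⟩ := hx
    rw [mul_assoc, ← map_mul, big _ e _ (D'.mul hb hz), map_zero, mul_zero]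
  | zero => exact zero_mul _
  | add _ _ _ _ a b => rw [add_mul, a, b, add_zero]
  | smul _ _ _ a => rw [smul_mul_assoc, a, smul_zero]

theorem tj_tr (h : D'.Hom D π) {X Y : Matrix n n Ω} (hX : ∀ a b, X a b ∈ Tj D D' π i)
    (hY : ∀ a b, Y a b ∈ Tj D D' π j) : trace (X * Y) ∈ Tj D D' π (i + j) :=
  sum_mem fun _ _ => sum_mem fun _ _ => tj_mul h (hX _ _) (hY _ _)

variable (h : D'.Hom D π) (big : ∀ j, N < j → ∀ b ∈ D'.G j, b = 0) (hz : z ∈ D'.G (N - 2))
  {ψ : κ → Ω} (hψ : ∀ k, ψ k ∈ D.G 0) {Q : κ → κ → Ω'}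
include h big hz hψ

/-- the differential of the primitive -/
theorem d_beta (hQ : ∀ k l, Q k l ∈ D'.G 2) :
    D.d ((∑ k, ∑ l, ψ k * D.d (ψ l) * π (Q k l)) * π z) =
      (∑ k, ∑ l, D.d (ψ k) * D.d (ψ l) * π (Q k l)) * π z := by
  simp only [Finset.sum_mul, map_sum]
  refine Finset.sum_congr rfl fun k _ => Finset.sum_congr rfl fun l _ => ?_
  have m := D.mul (hψ k) (D.dG (hψ l))
  rw [D.lb _ (D.mul m (h.mem (hQ k l))), ← h.d, tj_kill big (D'.dG hz) (by omega)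
    (tj_of m (hQ k l)), smul_zero, add_zero, D.lb _ m, add_mul, smul_mul_assoc, ← h.d,
    tj_kill big hz (by omega) (tj_of m (D'.dG (hQ k l))), smul_zero, add_zero, D.lb _ (hψ k),
    D.dd, mul_zero, smul_zero, add_zero]

omit h big hz hψ in
theorem tj_sum {p q : ℤ} {c : κ → Ω} {η : κ → Matrix n n Ω'} (hc : ∀ k, c k ∈ D.G p)
    (hη : ∀ k, η k ∈ D'.M q n n) (a b : n) : (∑ k, c k • (η k).map π) a b ∈ Tj D D' π q := by
  rw [Matrix.sum_apply]
  exact sum_mem fun k _ => tj_of (hc k) (hη k a b)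

omit big hz in
theorem tr_EE (h1 : ∑ k, ψ k = 1) {θ : κ → Matrix n n Ω'} (hθ : ∀ k, θ k ∈ D'.M 1 n n)
    {P : κ → Ω'} (e : ∀ k l, ψ k = 0 ∨ ψ l = 0 ∨ trace (θ k * θ l) = P l - P k - Q k l) :
    trace ((∑ k, D.d (ψ k) • (θ k).map π) * ∑ k, D.d (ψ k) • (θ k).map π) =
      ∑ k, ∑ l, D.d (ψ k) * D.d (ψ l) * π (Q k l) := by
  have s0 : ∑ k, D.d (ψ k) = 0 := by rw [← map_sum, h1, d_one]
  have e2 : ∀ k l, trace (D.d (ψ k) • (θ k).map π * D.d (ψ l) • (θ l).map π) =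
      D.d (ψ k) * D.d (ψ l) * π (Q k l) + D.d (ψ k) * D.d (ψ l) * π (P k) -
        D.d (ψ k) * (D.d (ψ l) * π (P l)) := fun k l => by
    rcases e k l with e | e | e
    · simp only [e, map_zero, zero_smul, zero_mul, trace_zero, add_zero, sub_zero]
    · simp only [e, map_zero, zero_smul, zero_mul, mul_zero, trace_zero, add_zero, sub_zero]
    rw [smul_mul, mul_sm1 (h.M (hθ k)) (D.dG (hψ l)), smul_neg, smul_smul, trace_neg, trace_smul,
      ← mp_mul, ← mp_tr, e, smul_eq_mul, map_sub, map_sub, mul_sub, mul_sub, mul_assoc _ _ (π (P l))]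
    abel
  rw [Finset.sum_mul_sum, trace_sum]
  simp only [trace_sum, e2, Finset.sum_sub_distrib, Finset.sum_add_distrib]
  simp only [← Finset.sum_mul _ _ (π (P _)), ← Finset.mul_sum, s0, mul_zero, zero_mul,
    Finset.sum_const_zero, add_zero]
  rw [← Finset.sum_mul, s0, zero_mul, sub_zero]

/-- the top part of the second form -/
theorem tr_top (h1 : ∑ k, ψ k = 1) {θ : κ → Matrix n n Ω'} (hθ : ∀ k, θ k ∈ D'.M 1 n n)
    {P : κ → Ω'} (e : ∀ k l, ψ k = 0 ∨ ψ l = 0 ∨ trace (θ k * θ l) = P l - P k - Q k l)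
    {A : Matrix n n Ω} (hA : A = ∑ k, ψ k • (θ k).map π) :
    trace (D.cur A * D.cur A) * π z = (∑ k, ∑ l, D.d (ψ k) * D.d (ψ l) * π (Q k l)) * π z := by
  have tE := tj_sum (π := π) (fun k => D.dG (hψ k)) hθ
  have tA : ∀ a b, A a b ∈ Tj D D' π 1 := by
    rw [hA]
    exact tj_sum hψ hθ
  have tG : ∀ a b, (∑ k, ψ k • (D'.dm (θ k)).map π + A * A) a b ∈ Tj D D' π (1 + 1) :=
    fun a b => by
    rw [Matrix.add_apply, Matrix.mul_apply]
    exact add_mem (tj_sum hψ (fun k => M.dm (hθ k)) a b)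
      (sum_mem fun c _ => tj_mul h (tA a c) (tA c b))
  have e1 : D.cur A = ∑ k, D.d (ψ k) • (θ k).map π + (∑ k, ψ k • (D'.dm (θ k)).map π + A * A) := by
    rw [cur, ← add_assoc, ← Finset.sum_add_distrib]
    refine congrArg (· + A * A) ?_
    rw [hA, map_sum]
    exact Finset.sum_congr rfl fun k _ => by rw [dm_sm0 (hψ k), h.dm]
  rw [← tr_EE h hψ h1 hθ e, e1]
  generalize ∑ k, D.d (ψ k) • (θ k).map π = E at tE ⊢
  generalize ∑ k, ψ k • (D'.dm (θ k)).map π + A * A = G at tG ⊢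
  rw [add_mul, mul_add, mul_add, trace_add, trace_add, trace_add, add_mul, add_mul, add_mul,
    tj_kill big hz (by omega) (tj_tr h tE tG), tj_kill big hz (by omega) (tj_tr h tG tE),
    tj_kill big hz (by omega) (tj_tr h tG tG), add_zero, add_zero, add_zero]

omit h big hz hψ in
theorem tr_cur_zero {A : Matrix n n Ω} (hA : A ∈ D.M 1 n n) (h0 : trace A = 0) :
    trace (D.cur A) = 0 := by
  rw [cur, trace_add, ← d_tr, h0, map_zero, zero_add]
  exact eq_zero_of_eq_neg (tr_od hA hA (by decide))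

end Vale.Agent.P275CF
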