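import Vale.Agent.P275CF.Core
import Vale.Agent.P275UC.Res
import Vale.Agent.P275UC.Fi
import Vale.Agent.P275OM.Cb
import Vale.Agent.P275DS.Psi

/-!
# P275, comparison on the character variety: the integral over the curve
-/

set_option linter.unusedSectionVars false
set_option backward.isDefEq.respectTransparency false

open scoped Manifold ContDiff Topology Matrix Real
open Filter Set
open Vale.Agent.P272.K Vale.Agent.P272.K.Prod Vale.Agent.P281Z.Hg Vale.Agent.P275MC
  Vale.Agent.P275KU Vale.Agent.P275OM Vale.Agent.P275OM.Fr Vale.Agent.P275Z P275CW P275CC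
open Vale.Agent.P275RH (cwd)

noncomputable section

namespace Vale.Agent.P275CF

attribute [local instance] prodCS isManifold_prod

variable {d g : ℕ} {X C J : Type} [TopologicalSpace X] [ChartedSpace (Cm d) X]
  [IsManifold 𝓘(ℂ, Cm d) ω X] [T2Space X] [SecondCountableTopology X] [TopologicalSpace C]
  [ChartedSpace (Cm 1) C] [IsManifold 𝓘(ℂ, Cm 1) ω C] [T2Space C] [CompactSpace C]
  [SecondCountableTopology C] [Fintype J] [DecidableEq J] [Nc (X × C)]

/-- **CFC** -/
theorem cfc (h : MV0 ∧ LHP) {A : P275GC.At C} {k : Fin A.N} (hA : P275CW.IsA A) (F : Wc g C)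
    (hD : F.D ⊆ (A.e k).source) (hz : ∀ c, F.z c = A.e k c - A.e k F.p)
    (r : X → Gm g →* Matrix J J ℂ) (hr : ∀ w, Continuous fun x => r x w)
    (h1 : ∀ x, r x (cwd g) = 1) (R : Fin g × Bool → (Matrix J J (Sm d X))ˣ)
    (hR : ∀ x s, r x (.of s) = (R s).1.map (Sm.ev x)) (h0 : dd d X (sf (Omg R)) = 0) :
    ∃ c : ℂ, c ≠ 0 ∧ gys (act_fst (n := d) (m := 1)) ((thOf h).p2 (F.vb r hr h1)).1 =
      c • clT ⟨sf (Omg R), h0⟩ := by
  obtain ⟨ψ0, ψ, ν, s0, s1, t0, t1, sum, hν, ν0, z0, z1⟩ := P275UC.puc_abs hA F.opD F.mem hD F.op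
    F.cov' fun a x h h' => ⟨(F.log a x h h').1.trans (hz x), (F.log a x h h').2.1⟩
  obtain ⟨θ, Ψ, H⟩ := ex_wds h1 R fun s a b => funext fun x => (congrFun₂ (hR x s) a b).symm
  rw [show (lam R (cwd g)).a = Omg R by
    simp only [Omg, map_cwd, lam, FreeGroup.lift_apply_of]] at H
  let _ : Fintype (F.vb r hr h1).ι := inferInstanceAs (Fintype (Option (Fin F.M)))
  have B : Wb 1 r (F.vb r hr h1) F.V F.w fun k => Option.elim k ψ0 ψ :=
    ⟨fun _ _ => .rfl, fun _ _ _ => rfl, fun _ _ _ => Wc.lcw, by rintro (_ | a); exacts [s0, s1 a],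
      by rintro (_ | a); exacts [t0, t1 a], fun x => (Fintype.sum_option _).trans (sum x)⟩
  obtain ⟨Φ, β, m4, d0, e, hz⟩ := B.core h H (ν := ν) (s := F.s / (2 * π * Complex.I)) fun x => by
    by_cases hx : x ∈ tsupport ψ0
    · have : ∀ a b, ∃ m : ℤ, x ∈ F.U a → x ∈ F.U b →
          F.θ a x - F.θ b x = m * (2 * π * Complex.I) ∧ F.γ a b x = cwd g ^ (F.s * m) :=
        fun a b => by
          by_cases k : x ∈ F.U a ∧ x ∈ F.U b
          · exact ((F.log a x k.1 (t0 hx)).2.2 b k.2).imp fun _ e _ _ => e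
          · exact ⟨0, fun i j => absurd ⟨i, j⟩ k⟩
      choose m hm using this
      refine Or.inr ⟨fun k l => Option.elim k 0 fun a => Option.elim l 0 fun b => F.s * m a b,
        ?_, ?_⟩
      · rintro (_ | a) (_ | b) i j
        exacts [rfl, rfl, rfl, (hm a b i j).2]
      · rw [z1 x (t0 hx) _ fun a b i j => (hm a b i j).1.symm]
        refine Eq.trans ?_ (Fintype.sum_option _).symm
        simp only [Option.elim, Int.cast_zero, zero_smul, Finset.sum_const_zero, zero_add,
          Finset.smul_sum, smul_smul]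
        refine Finset.sum_congr rfl fun a _ => Eq.trans ?_ (Fintype.sum_option _).symm
        simp only [Int.cast_zero, zero_smul, zero_add, Int.cast_mul]
        refine Finset.sum_congr rfl fun b _ => congrArg (· • _) ?_
        rw [mul_comm (m a b : ℂ), ← mul_assoc, div_mul_cancel₀ _ Complex.two_pi_I_ne_zero]
    · have := sum x
      rw [image_eq_zero_of_notMem_tsupport hx, zero_add] at this
      obtain ⟨a, -, ha⟩ := Finset.exists_ne_zero_of_sum_ne_zero (this.trans_ne one_ne_zero)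
      have ha := t1 a (subset_tsupport _ ha)
      refine Or.inl ⟨z0 x hx, some a, ha, ?_⟩
      rintro (_ | k) (_ | l) i j
      exacts [absurd i hx, absurd i hx, absurd j hx,
        inv_mul_eq_of_eq_mul (F.mul a k l x ha (t1 k i) (t1 l j)).symm]
  have m2 := H.m2 (cwd g ^ (1 : ℤ))
  rw [H.pow, Int.cast_one, one_smul] at m2
  refine ⟨_, neg_ne_zero.2 (mul_ne_zero (mul_ne_zero (div_ne_zero (Int.cast_ne_zero.2 F.hs)
    Complex.two_pi_I_ne_zero) (sgc_ne (n := d) (m := 1))) ν0), ?_⟩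
  rw [e, cF_eq d0]
  exact (P275UC.fi_cv m4 hν m2 hz).gy d0 h0

end Vale.Agent.P275CF
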