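import Vale.Agent.P275CW.Cwg
import Vale.Agent.P275OM.Fm

/-!
# P275, comparison on the character variety: the forms of the words
-/

set_option linter.unusedSectionVars false

open scoped Manifold ContDiff Topology Matrix
open Filter Set
open Vale.Agent.P272.K Vale.Agent.P281Z.Hg Vale.Agent.P275MC Vale.Agent.P275KU Vale.Agent.P275OM
  Vale.Agent.P275OM.Fr P275CW

noncomputable section

namespace Vale.Agent.P275CF

variable {d : ℕ} {M J G : Type} [TopologicalSpace M] [ChartedSpace (Cm d) M]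
  [IsManifold 𝓘(ℂ, Cm d) ω M] [Fintype J] [DecidableEq J] [Group G]

/-- the forms attached to the words -/
structure Wds (r : M → G →* Matrix J J ℂ) (c : G) (w : Fr d M) (θ : G → Matrix J J (Fr d M))
    (Ψ : G → Fr d M) : Prop where
  sm : ∀ γ, SmM d fun x => r x γ
  m1 : ∀ γ, θ γ ∈ (dgF d M).M 1 J J
  m2 : ∀ γ, Ψ γ ∈ (dgF d M).G 2
  eq : ∀ γ x, (θ γ).map (gq x) =
    gM d x (fun y => r y γ) * (dgG d x).dm (gM d x fun y => r y γ⁻¹)
  two : ∀ γ γ', (θ γ * θ γ').trace = Ψ γ' - Ψ γ - Ψ (γ⁻¹ * γ')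
  zero : ∀ m : ℤ, θ (c ^ m) = 0
  pow : ∀ m : ℤ, Ψ (c ^ m) = (m : ℂ) • w

theorem m_L (f : (Matrix J J (Sm d M))ˣ) : (dvF d M).L f ∈ (dgF d M).M 1 J J := fun a c =>
  od_Dg ((dvF d M).om_L f a c)

theorem m_R (f : (Matrix J J (Sm d M))ˣ) : (dvF d M).Rr f ∈ (dgF d M).M 1 J J := fun a c =>
  od_Dg ((dvF d M).om_R f a c)

theorem wds_of {r : M → G →* Matrix J J ℂ} {c : G} (hc : ∀ x, r x c = 1)
    (Λ : G →* Gh (dvF d M) J) (h0 : ∀ γ, (Λ γ).a ∈ (dgF d M).G 2)
    (h1 : ∀ x γ, (Λ γ).g.1.map (Sm.ev x) = r x γ) :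
    Wds r c (Λ c).a (fun γ => (dvF d M).L (Λ γ⁻¹).g) fun γ => (Λ γ).a := by
  have h2 : ∀ γ a c, ((Λ γ).g.1 a c).1 = fun x => r x γ a c := fun γ a c =>
    funext fun x => congrFun₂ (h1 x γ) a c
  have h3 : ∀ γ x, ((dvF d M).u (Λ γ).g).map (gq x) = gM d x fun y => r y γ := fun γ x =>
    Matrix.ext fun a c => (gm_eq _ (.of_eq (h2 γ a c))).symm
  have h4 : ∀ f : Matrix J J (Sm d M), (dvF d M).dm f = (dgF d M).dm ((dvF d M).m f) := fun _ => rfl
  have hK : (Λ c).g ∈ (dvF d M).K J := gqM_ext fun x => by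
    rw [h4, (hom_gq x).dm, ← (dvF d M).u_eq, h3, Matrix.map_zero _ (map_zero _)]
    simp only [hc]
    exact Matrix.ext fun a c => d_gm_const _
  have hK' : ∀ m : ℤ, (Λ (c ^ m)).g ∈ (dvF d M).K J := fun m => by
    rw [map_zpow]
    have := zpow_mem hK m
    rwa [show (Λ c).g = Gh.π (Λ c) from rfl, ← map_zpow] at this
  refine ⟨fun γ a c => h2 γ a c ▸ ((Λ γ).g.1 a c).2, fun γ => m_L _, h0, fun γ x => ?_,
    fun γ γ' => ?_, fun m => ?_, fun m => ?_⟩
  · rw [Dv.L, DG.mp_mul, h4, (hom_gq x).dm, ← (dvF d M).u_eq, h3, ← Gh.inv_g, ← map_inv, inv_inv, h3]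
  · rw [map_mul, Gh.mul_a, Dv.c, map_inv Λ γ', Gh.inv_g, (dvF d M).L_inv, Matrix.mul_neg,
      Matrix.trace_neg, map_inv Λ γ, Gh.inv_a]
    abel
  · rw [← zpow_neg]
    exact Dv.L_K (hK' _)
  · induction m using Int.induction_on with
    | zero => simp
    | succ m ih =>
      rw [zpow_add_one, map_mul, Gh.mul_a, ih, Dv.c_K_right _ hK, add_zero, Int.cast_add,
        add_smul, Int.cast_one, one_smul]
    | pred m ih =>
      rw [zpow_sub_one, map_mul, Gh.mul_a, ih, Dv.c_K_left (hK' _), add_zero, Int.cast_sub,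
        sub_smul, Int.cast_one, one_smul, map_inv, Gh.inv_a, sub_eq_add_neg]

/-- the words in the central extension -/
def lam {ι : Type} (R : ι → (Matrix J J (Sm d M))ˣ) : FreeGroup ι →* Gh (dvF d M) J :=
  FreeGroup.lift fun s => (dvF d M).σ (R s)

theorem ex_wds {ι : Type} {r : M → FreeGroup ι →* Matrix J J ℂ} {c : FreeGroup ι}
    (hc : ∀ x, r x c = 1) (R : ι → (Matrix J J (Sm d M))ˣ)
    (hR : ∀ s a b, ((R s).1 a b).1 = fun x => r x (.of s) a b) :
    ∃ θ Ψ, Wds r c (lam R c).a θ Ψ := by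
  refine ⟨_, _, wds_of hc (lam R) (fun γ => ?_) fun x γ => ?_⟩
  · induction γ using FreeGroup.induction_on with
    | C1 => rw [map_one]; exact zero_mem _
    | of s => simp only [lam, FreeGroup.lift_apply_of]; exact zero_mem _
    | inv_of s ih => rw [map_inv]; exact neg_mem ih
    | mul u v a b =>
      rw [map_mul]
      exact add_mem (add_mem a b) (DG.M.tr (DG.M.mul (m_L _) (m_R _) rfl))
  · have : (Units.map (Sm.ev x).mapMatrix.toMonoidHom).comp (Gh.π.comp (lam R)) =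
        (r x).toHomUnits := FreeGroup.ext_hom _ _ fun s => Units.ext (by
      simp only [lam, MonoidHom.comp_apply, FreeGroup.lift_apply_of]
      ext a c
      exact congrFun (hR s a c) x)
    exact congrArg Units.val (DFunLike.congr_fun this γ)

end Vale.Agent.P275CF
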