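import Vale.Agent.P275CF.Alg
import Vale.Agent.P275CF.Wd
import Vale.Agent.P275CW.Cwe
import Vale.Agent.P275KU.Cr

/-!
# P275, comparison on the character variety: the second form of a family of flat bundles
-/

set_option linter.unusedSectionVars false
set_option backward.isDefEq.respectTransparency false

open scoped Manifold ContDiff Topology Matrix
open Filter Set
open Vale.Agent.P272.K Vale.Agent.P272.K.Prod Vale.Agent.P281Z.Hg Vale.Agent.P275MC
  Vale.Agent.P275KU Vale.Agent.P275OM Vale.Agent.P275OM.Fr Vale.Agent.P275Z P275CW P275CC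

noncomputable section

namespace Vale.Agent.P275CF

theorem law0 {Ω n : Type} [Ring Ω] [Algebra ℂ Ω] {D : DG Ω} [Fintype n] [DecidableEq n]
    {u u' v v' g : Matrix n n Ω} (hu : u' ∈ D.M 0 n n) (h1 : u * u' = 1) (h2 : u' * u = 1)
    (h3 : v * v' = 1) (h : g * v = u) : D.dm g + u * D.dm u' * g = g * (v * D.dm v') := by
  have e1 : u' * g = v' := by
    rw [← mul_one (u' * g), ← h3, ← mul_assoc, mul_assoc u', h, h2, one_mul]
  rw [← mul_assoc, h, ← e1, DG.dm_ev hu Even.zero, mul_add, ← mul_assoc, ← mul_assoc, h1, one_mul,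
    add_comm]

theorem cutd {d : ℕ} {M : Type} [TopologicalSpace M] [ChartedSpace (Cm d) M]
    [IsManifold 𝓘(ℂ, Cm d) ω M] {x : M} {a : ∀ y : M, Gx d y} {ρ : M → ℂ} (hρ : Sa d x ρ)
    (h : x ∈ tsupport ρ → Lr a x) : Lr (fun y => (dgG d y).d (gm d y ρ) * a y) x := by
  by_cases hx : x ∈ tsupport ρ
  · exact (Lr.gm hρ).dd.mul (h hx)
  · exact Lr.zero.congr (((isClosed_tsupport ρ).isOpen_compl.eventually_mem hx).mono
      fun y hy => by rw [gm_off hy, map_zero, zero_mul])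

attribute [local instance] prodCS isManifold_prod

variable {d m : ℕ} {X C J G : Type} [TopologicalSpace X] [ChartedSpace (Cm d) X]
  [IsManifold 𝓘(ℂ, Cm d) ω X] [TopologicalSpace C] [ChartedSpace (Cm m) C]
  [IsManifold 𝓘(ℂ, Cm m) ω C] [Fintype J] [DecidableEq J] [Group G] [Nc (X × C)]
  {r : X → G →* Matrix J J ℂ} {c : G} {Ω : Fr d X} {θ : G → Matrix J J (Fr d X)} {Ψ : G → Fr d X}

/-- a bundle given by words, with a partition of unity -/
structure Wb (m : ℕ) [ChartedSpace (Cm m) C] (r : X → G →* Matrix J J ℂ) (W : VB (X × C) J)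
    [Fintype W.ι] (V : W.ι → Set C) (w : W.ι → W.ι → C → G) (ψ : W.ι → C → ℂ) : Prop where
  hU : ∀ k y, y ∈ W.U k ↔ y.2 ∈ V k
  hg : ∀ k l y, W.g k l y = r y.1 (w k l y.2)
  lc : ∀ k l x, x ∈ V k → x ∈ V l → ∀ᶠ y in 𝓝 x, w k l y = w k l x
  sm : ∀ k, SmC m (ψ k)
  sp : ∀ k, tsupport (ψ k) ⊆ V k
  one : ∀ x, ∑ k, ψ k x = 1

variable {W : VB (X × C) J} [Fintype W.ι] {V : W.ι → Set C} {w : W.ι → W.ι → C → G}
  {ψ : W.ι → C → ℂ} {y : X × C}

theorem ts_snd {f : C → ℂ} (h : y ∈ tsupport fun y : X × C => f y.2) : y.2 ∈ tsupport f :=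
  by_contra fun hn => notMem_tsupport_iff_eventuallyEq.2
    ((continuous_snd.tendsto y).eventually (notMem_tsupport_iff_eventuallyEq.1 hn)) h

variable (m θ w ψ) in
/-- the connection -/
def cn (i : W.ι) (y : X × C) : Matrix J J (Gx (d + m) y) :=
  ∑ k, gm (d + m) y (fun y => ψ k y.2) • ((θ (w i k y.2)).map (gq y.1)).map (pbg smo_fst y)

namespace Wb

variable (B : Wb m r W V w ψ)
include B

theorem sa (k : W.ι) (y : X × C) : Sa (d + m) y fun y => ψ k y.2 :=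
  (Sa.of (B.sm k) y.2).pull smo_snd

theorem ev {k l : W.ι} (hk : y.2 ∈ V k) (hl : y.2 ∈ V l) :
    ∀ᶠ z in 𝓝 y, w k l z.2 = w k l y.2 := (continuous_snd.tendsto y).eventually (B.lc k l _ hk hl)

theorem off (k : W.ι) (y : X × C) :
    gm (d + m) y (fun y => ψ k y.2) = 0 ∨ y.2 ∈ tsupport (ψ k) :=
  or_iff_not_imp_right.2 fun h => gm_off fun h' => h (ts_snd h')

theorem sum (y : X × C) : ∑ k, gm (d + m) y (fun y => ψ k y.2) = 1 := by
  rw [← gm_sum _ fun k _ => B.sa k y]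
  simp only [B.one, gm_one]

theorem lcon (H : Wds r c Ω θ Ψ) : LCon W (cn m θ w ψ) := by
  have e1 : ∀ i j y, y ∈ W.U i → y ∈ W.U j → (fun z => r z.1 (w i j y.2)) =ᶠ[𝓝 y] W.g i j :=
    fun i j y hi hj => (B.ev ((B.hU _ _).1 hi) ((B.hU _ _).1 hj)).mono fun z e => by
      rw [B.hg, e]
  have e2 : ∀ x γ γ' δ, (∀ x, r x γ * r x γ' = r x δ) →
      gM d x (r · γ) * gM d x (r · γ') = gM d x (r · δ) := fun x γ γ' δ h =>
    gM_mul_eq ((H.sm _).sa x) ((H.sm _).sa x) (.of_forall h)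
  have e3 : ∀ x γ γ', γ * γ' = 1 → gM d x (r · γ) * gM d x (r · γ') = 1 := fun x γ γ' h => by
    rw [e2 x γ γ' 1 fun x => by rw [← map_mul, h]]
    simp only [map_one, gM_one]
  refine ⟨fun i j y hi hj => (((H.sm _).sa y.1).pull smo_fst).congr (e1 i j y hi hj),
    fun i y _ => sum_mem fun k _ => P275NM.sm_mem (gm_mem _)
      ((hom_pbg _ y).M ((hom_gq _).M (H.m1 _))) (zero_add 1),
    fun i y hi => LrM.sum _ fun k _ => LrM.cut (B.sa k y) fun hk =>
      (LrM.gq ((θ (w i k y.2)).map (pbH smo_fst))).congr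
        ((B.ev ((B.hU _ _).1 hi) (B.sp k (ts_snd hk))).mono fun z e => by rw [e]; rfl),
    fun i j y hi hj => ?_⟩
  have := law_sum (D := dgG (d + m) y) (g := gM (d + m) y (W.g i j)) (c := fun _ => 0)
    (A := fun k => ((θ (w i k y.2)).map (gq y.1)).map (pbg smo_fst y))
    (B := fun k => ((θ (w j k y.2)).map (gq y.1)).map (pbg smo_fst y))
    (gM_mem _) (fun k => gm_mem _) (B.sum y) fun k => (B.off k y).imp_right fun hk => by
      have k1 := congrArg (·.map (pbg (smo_fst (m := m)) y)) (law0 (D := dgG d y.1) (gM_mem _)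
        (e3 y.1 _ _ (mul_inv_cancel (w i k y.2))) (e3 y.1 _ _ (inv_mul_cancel _))
        (e3 y.1 _ _ (mul_inv_cancel (w j k y.2))) (e2 y.1 (w i j y.2) _ _ fun x => by
          have := W.cc i j k (x, y.2) ((B.hU _ _).2 ((B.hU _ y).1 hi))
            ((B.hU _ _).2 ((B.hU _ y).1 hj)) ((B.hU _ _).2 (B.sp k hk))
          rwa [B.hg, B.hg, B.hg] at this))
      rw [← H.eq, ← H.eq, DG.mp_add, DG.mp_mul, DG.mp_mul, (hom_pbg _ y).dm,
        pbg_gM _ ((H.sm _).sa _), gM_congr (e1 i j y hi hj)] at k1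
      rw [zero_smul, add_zero]
      exact k1
  simpa only [cn, mul_zero, Finset.sum_const_zero, zero_smul, add_zero] using this

theorem beta : ∃ β : Fr (d + m) (X × C), ∀ y, gq y β =
    ∑ k, ∑ l, gm (d + m) y (fun y => ψ k y.2) * (dgG (d + m) y).d (gm (d + m) y fun y => ψ l y.2) *
      pbg smo_fst y (gq y.1 (Ψ (w k l y.2))) := by
  simp only [mul_assoc]
  exact Lr.glue fun y => Lr.sum _ fun k _ => Lr.sum _ fun l _ => Lr.cut (B.sa k y) fun hk =>
    cutd (B.sa l y) fun hl => (Lr.gq (pbH smo_fst (Ψ (w k l y.2)))).congr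
      ((B.ev (B.sp k (ts_snd hk)) (B.sp l (ts_snd hl))).mono fun z e => by rw [e]; rfl)

/-- the second form, up to an exact form -/
theorem core (h : MV0 ∧ LHP) (H : Wds r c Ω θ Ψ) {ν : Fr m C} {s : ℂ}
    (K : ∀ x, (gq x ν = 0 ∧ ∃ i, x ∈ V i ∧ ∀ k l, x ∈ tsupport (ψ k) → x ∈ tsupport (ψ l) →
      (w i k x)⁻¹ * w i l x = w k l x) ∨ ∃ n : W.ι → W.ι → ℤ,
      (∀ k l, x ∈ V k → x ∈ V l → w k l x = c ^ n k l) ∧ s • gq x ν = ∑ k, ∑ l, (n k l : ℂ) •
        ((dgG m x).d (gm m x (ψ k)) * (dgG m x).d (gm m x (ψ l)))) :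
    ∃ Φ β : Fr (d + m) (X × C), Φ ∈ (dgF _ _).G 4 ∧ (dgF _ _).d Φ = 0 ∧
      ((thOf h).p2 W).1 = cF Φ ∧ ∀ z ∈ (dgF d X).G ((d + d : ℕ) - 2), Φ * pbH smo_fst z =
        dF (β * pbH smo_fst z) - s • (pbH smo_snd ν * pbH smo_fst (Ω * z)) := by
  have hA := B.lcon H
  obtain ⟨F₁, Φ, e₁, e₂⟩ := hA.ex
  obtain ⟨β, hβ⟩ := B.beta (Ψ := Ψ)
  refine ⟨Φ, β, mem_of_gq fun y => ?_, gq_ext fun y => ?_, (cwt h hA e₁ e₂).2,
    fun z hz => gq_ext fun y => ?_⟩
  · obtain ⟨i, hi⟩ := W.cov y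
    have := DG.cur_mem (hA.mem i y hi)
    exact (e₂ i y hi).symm ▸ DG.M.tr (DG.M.mul this this rfl)
  · obtain ⟨i, hi⟩ := W.cov y
    have := (hA.con hi).d_c2
    rwa [DG.c2, Matrix.one_mul, ← e₂ i y hi, ← (hom_gq y).d, ← map_zero (gq y)] at this
  have hz' := (hom_gq y.1).mem hz
  have hb : ∀ j : ℤ, (d + d : ℕ) < j → ∀ b ∈ (dgG d y.1).G j, b = 0 := fun j a b => big a
  rw [map_sub, map_mul, ← d_gq, map_mul (gq y), map_smul, map_mul (gq y), hβ, ← pbg_gq, ← pbg_gq,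
    ← pbg_gq,
    d_beta (hom_pbg _ y) hb hz' (fun k => gm_mem _) fun k l => (hom_gq _).mem (H.m2 _)]
  rcases K y.2 with ⟨k1, i, hi, k2⟩ | ⟨n, k1, k2⟩
  · rw [k1, map_zero, zero_mul, smul_zero, sub_zero, e₂ i y ((B.hU _ _).2 hi)]
    refine tr_top (hom_pbg _ y) hb hz' (fun k => gm_mem _) (B.sum y)
      (fun k => (hom_gq _).M (H.m1 _)) (P := fun k => gq y.1 (Ψ (w i k y.2)))
      (fun k l => (B.off k y).imp_right fun a => (B.off l y).imp_right fun b => ?_) rfl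
    rw [← DG.mp_mul, ← DG.mp_tr, H.two, k2 k l a b, map_sub, map_sub]
  · obtain ⟨i, hi⟩ := W.cov y
    have k3 : cn m θ w ψ i y = 0 := Finset.sum_eq_zero fun k _ => by
      rcases B.off (d := d) k y with e | e
      · rw [e, zero_smul]
      · rw [k1 i k ((B.hU _ _).1 hi) (B.sp k e), H.zero, Matrix.map_zero _ (map_zero _),
          Matrix.map_zero _ (map_zero _), smul_zero]
    rw [e₂ i y hi, k3, DG.cur, map_zero, mul_zero, add_zero, mul_zero, Matrix.trace_zero, zero_mul,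
      ← smul_mul_assoc, ← map_smul, k2, map_mul, map_mul, ← mul_assoc, ← sub_mul, eq_comm,
      sub_eq_zero.2 ?_, zero_mul]
    simp only [map_sum, Finset.sum_mul, map_smul, map_mul, (hom_pbg smo_snd y).d,
      pbg_gm smo_snd (Sa.of (B.sm _) _)]
    refine Finset.sum_congr rfl fun k _ => Finset.sum_congr rfl fun l _ => ?_
    rcases B.off (d := d) k y with a | a
    · simp only [a, map_zero, zero_mul, smul_zero]
    rcases B.off (d := d) l y with b | b
    · simp only [b, map_zero, zero_mul, mul_zero, smul_zero]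
    rw [k1 k l (B.sp k a) (B.sp l b), H.pow, map_smul, map_smul, mul_smul_comm, smul_mul_assoc]

end Wb

end Vale.Agent.P275CF
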